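import Mathlib

namespace Vale.Agent.Lib.P160.H66

/-- Numeric lemma (pool job P160-N2): for all large `n` and `30 * m ≤ n`, with
`L = 2 * Nat.sqrt (Nat.sqrt n) + 1`, the number `(2 ^ n * L ^ n) ^ 2 * 2 ^ (7 * n)` is at most the
factorial of `n - (m + L) - ⌈40 n / logb 2 n⌉₊`. -/
theorem rv_num2 : ∃ N₀ : ℕ, ∀ m n : ℕ, N₀ ≤ n → 30 * m ≤ n →
    (2 ^ n * (2 * Nat.sqrt (Nat.sqrt n) + 1) ^ n) ^ 2 * 2 ^ (7 * n) ≤
      (n - (m + (2 * Nat.sqrt (Nat.sqrt n) + 1)) -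
        ⌈40 * (n : ℝ) / Real.logb 2 (n : ℝ)⌉₊).factorial := by
  refine ⟨2 ^ 2400, fun m n hn hm => ?_⟩
  set s := Nat.sqrt (Nat.sqrt n) with hs
  set c := ⌈40 * (n : ℝ) / Real.logb 2 (n : ℝ)⌉₊ with hc
  -- `s` is huge
  have hs600 : 2 ^ 600 ≤ s := by
    rw [hs, Nat.le_sqrt', Nat.le_sqrt']
    have e : (((2 : ℕ) ^ 600) ^ 2) ^ 2 = 2 ^ (600 * 2 * 2) := by rw [← pow_mul, ← pow_mul]
    have e2 : (600 * 2 * 2 : ℕ) = 2400 := by norm_num
    rw [e2] at e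
    rw [e]
    exact hn
  have hsbig : 4608 ^ 4 ≤ s := by
    have h1 : 4608 ^ 4 ≤ 2 ^ 52 := by norm_num
    have h2 : ∀ a b : ℕ, a ≤ b → 2 ^ a ≤ 2 ^ b := fun a b hab =>
      Nat.pow_le_pow_right (by norm_num) hab
    exact le_trans h1 (le_trans (h2 52 600 (by norm_num)) hs600)
  have hs30 : 30 ≤ s := le_trans (by norm_num) hsbig
  have hs1 : 0 < s := by omega
  -- `s ^ 4 ≤ n`
  have hs4 : s ^ 4 ≤ n := by
    have h1 : s ^ 2 ≤ Nat.sqrt n := Nat.sqrt_le' _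
    have h2 : (Nat.sqrt n) ^ 2 ≤ n := Nat.sqrt_le' _
    calc s ^ 4 = (s ^ 2) ^ 2 := by ring
      _ ≤ (Nat.sqrt n) ^ 2 := Nat.pow_le_pow_left h1 2
      _ ≤ n := h2
  have hn60 : 60 ≤ n := by
    have h1 : 60 ≤ 2 ^ 6 := by norm_num
    have h2 : ∀ a b : ℕ, a ≤ b → 2 ^ a ≤ 2 ^ b := fun a b hab =>
      Nat.pow_le_pow_right (by norm_num) hab
    exact le_trans h1 (le_trans (h2 6 2400 (by norm_num)) hn)
  set j := s ^ 3 with hj
  have hj30 : 30 * j ≤ n := by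
    calc 30 * j ≤ s * j := Nat.mul_le_mul_right _ hs30
      _ = s ^ 4 := by rw [hj]; ring
      _ ≤ n := hs4
  have hjbig : 27000 ≤ j := by
    calc 27000 = 30 ^ 3 := by norm_num
      _ ≤ j := Nat.pow_le_pow_left hs30 3
  have hL : 30 * (2 * s + 1) ≤ n := by
    have h1 : 30 * (2 * s + 1) ≤ s * j := by
      calc 30 * (2 * s + 1) ≤ s * 27000 := by omega
        _ ≤ s * j := Nat.mul_le_mul_left _ hjbig
    calc 30 * (2 * s + 1) ≤ s * j := h1
      _ = s ^ 4 := by rw [hj]; ring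
      _ ≤ n := hs4
  -- the ceiling term
  have hnpos : (0 : ℝ) < n := by
    have : 0 < n := by omega
    exact_mod_cast this
  have hlog : (2400 : ℝ) ≤ Real.logb 2 n := by
    rw [Real.le_logb_iff_rpow_le (by norm_num) hnpos]
    have h2 : (2 : ℝ) ^ (2400 : ℝ) = (2 : ℝ) ^ (2400 : ℕ) := by
      rw [← Real.rpow_natCast]; norm_num
    rw [h2]
    exact_mod_cast hn
  have hc30 : 30 * c ≤ n := by
    have hlpos : (0 : ℝ) < Real.logb 2 n := by linarith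
    have hx : 40 * (n : ℝ) / Real.logb 2 n ≤ n / 60 := by
      rw [div_le_div_iff₀ hlpos (by norm_num)]
      nlinarith
    have hx0 : 0 ≤ 40 * (n : ℝ) / Real.logb 2 n := by positivity
    have hlt : (c : ℝ) < 40 * (n : ℝ) / Real.logb 2 n + 1 := Nat.ceil_lt_add_one hx0
    have hn60r : (60 : ℝ) ≤ n := by exact_mod_cast hn60
    have h3 : (30 : ℝ) * c ≤ n := by linarith
    exact_mod_cast h3
  clear hn hs600
  set k := n - (m + (2 * s + 1)) - c with hk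
  have hkey : 3 * n ≤ 4 * (k - j) := by omega
  have hjk : j ≤ k := by omega
  -- step A
  have hA : (2 ^ n * (2 * s + 1) ^ n) ^ 2 * 2 ^ (7 * n) = (512 * (2 * s + 1) ^ 2) ^ n := by
    have a1 : 512 * (2 * s + 1) ^ 2 = (2 * (2 * s + 1)) ^ 2 * 2 ^ 7 := by ring
    rw [a1, mul_pow ((2 * (2 * s + 1)) ^ 2) (2 ^ 7) n, ← pow_mul, ← pow_mul, ← mul_pow,
      ← pow_mul, mul_comm 2 n]
  -- step B
  have hB : (512 * (2 * s + 1) ^ 2) ^ n ≤ (4608 * s ^ 2) ^ n := by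
    refine Nat.pow_le_pow_left ?_ n
    have h1 : 2 * s + 1 ≤ 3 * s := by omega
    calc 512 * (2 * s + 1) ^ 2 ≤ 512 * (3 * s) ^ 2 :=
          Nat.mul_le_mul_left _ (Nat.pow_le_pow_left h1 2)
      _ = 4608 * s ^ 2 := by ring
  -- step C
  have hC : (4608 * s ^ 2) ^ n ≤ j ^ (k - j) := by
    rw [← Nat.pow_le_pow_iff_left (n := 4) (by norm_num)]
    calc ((4608 * s ^ 2) ^ n) ^ 4 = (4608 ^ 4 * s ^ 8) ^ n := by
          rw [← pow_mul, mul_comm n 4, pow_mul]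
          congr 1
          ring
      _ ≤ (s * s ^ 8) ^ n := Nat.pow_le_pow_left (Nat.mul_le_mul_right _ hsbig) n
      _ = s ^ (9 * n) := by rw [← pow_succ', ← pow_mul]
      _ ≤ s ^ (12 * (k - j)) := Nat.pow_le_pow_right hs1 (by omega)
      _ = (j ^ (k - j)) ^ 4 := by
          rw [hj, ← pow_mul, ← pow_mul]
          congr 1
          ring
  -- step D
  have hD : j ^ (k - j) ≤ k.factorial :=
    le_trans (Nat.le_mul_of_pos_left _ (Nat.factorial_pos j))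
      (Nat.factorial_mul_pow_sub_le_factorial hjk)
  rw [hA]
  exact le_trans hB (le_trans hC hD)

end Vale.Agent.Lib.P160.H66
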